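import Vale.Agent.P235.H105.Hop
import Vale.Agent.P235.H134.Grid.Defs

/-!
# P235: the grid is plane

A rotation system of the `r × r` grid (`r ≥ 2`). Directions are the elements of `Fin 4`
(east, north, west, south); the rotation at a vertex is the successor in the set of the existing
directions. The faces are counted by the label `cell on the right`.
-/

set_option linter.all false
set_option autoImplicit false

namespace Vale.Agent.P235.ST.H6

open SimpleGraph Vale.Agent.P235 Vale.Agent.P235.H134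

/-- the next element of a set of directions -/
def suc (S : Fin 4 → Bool) (k : Fin 4) : Fin 4 :=
  if S (k + 1) then k + 1 else if S (k + 2) then k + 2 else if S (k + 3) then k + 3 else k

theorem suc_mem : ∀ (S : Fin 4 → Bool) (k : Fin 4), S k = true → S (suc S k) = true := by decide

theorem suc_inj : ∀ (S : Fin 4 → Bool) (k k' : Fin 4), S k = true → S k' = true →
    suc S k = suc S k' → k = k' := by decide

theorem suc_cyc : ∀ (S : Fin 4 → Bool) (k k' : Fin 4), S k = true → S k' = true →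
    ∃ n : Fin 4, (suc S)^[(n : ℕ)] k = k' := by decide

variable {r : ℕ}

/-- the existing directions at a vertex -/
def has (v : Fin r × Fin r) (k : Fin 4) : Bool :=
  if k = 0 then decide ((v.1 : ℕ) + 1 < r) else if k = 1 then decide ((v.2 : ℕ) + 1 < r)
  else if k = 2 then decide (0 < (v.1 : ℕ)) else decide (0 < (v.2 : ℕ))

theorem has0 (v : Fin r × Fin r) : has v 0 = decide ((v.1 : ℕ) + 1 < r) := rfl
theorem has1 (v : Fin r × Fin r) : has v 1 = decide ((v.2 : ℕ) + 1 < r) := rfl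
theorem has2 (v : Fin r × Fin r) : has v 2 = decide (0 < (v.1 : ℕ)) := rfl
theorem has3 (v : Fin r × Fin r) : has v 3 = decide (0 < (v.2 : ℕ)) := rfl

theorem adj_iff (u v : Fin r × Fin r) : (grid r).Adj u v ↔
    ((u.1 : ℕ) + 1 = v.1 ∧ (u.2 : ℕ) = v.2) ∨ ((u.1 : ℕ) = v.1 ∧ (u.2 : ℕ) + 1 = v.2) ∨
    ((v.1 : ℕ) + 1 = u.1 ∧ (u.2 : ℕ) = v.2) ∨ ((u.1 : ℕ) = v.1 ∧ (v.2 : ℕ) + 1 = u.2) := by
  unfold grid
  rw [boxProd_adj, pathGraph_adj, pathGraph_adj, Fin.ext_iff, Fin.ext_iff]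
  omega

/-- the direction of a dart -/
def dir (d : (grid r).Dart) : Fin 4 :=
  if (d.fst.1 : ℕ) + 1 = d.snd.1 then 0 else if (d.fst.2 : ℕ) + 1 = d.snd.2 then 1
  else if (d.snd.1 : ℕ) + 1 = d.fst.1 then 2 else 3

theorem dir_spec (d : (grid r).Dart) :
    (dir d = 0 ∧ (d.fst.1 : ℕ) + 1 = d.snd.1 ∧ (d.fst.2 : ℕ) = d.snd.2) ∨
    (dir d = 1 ∧ (d.fst.1 : ℕ) = d.snd.1 ∧ (d.fst.2 : ℕ) + 1 = d.snd.2) ∨
    (dir d = 2 ∧ (d.snd.1 : ℕ) + 1 = d.fst.1 ∧ (d.fst.2 : ℕ) = d.snd.2) ∨
    (dir d = 3 ∧ (d.fst.1 : ℕ) = d.snd.1 ∧ (d.snd.2 : ℕ) + 1 = d.fst.2) := by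
  have h := (adj_iff d.fst d.snd).1 d.adj
  unfold dir
  rcases h with ⟨h1, h2⟩ | ⟨h1, h2⟩ | ⟨h1, h2⟩ | ⟨h1, h2⟩
  · left
    exact ⟨if_pos h1, h1, h2⟩
  · right; left
    rw [if_neg (by omega), if_pos h2]
    exact ⟨rfl, h1, h2⟩
  · right; right; left
    rw [if_neg (by omega), if_neg (by omega), if_pos h1]
    exact ⟨rfl, h1, h2⟩
  · right; right; right
    rw [if_neg (by omega), if_neg (by omega), if_neg (by omega)]
    exact ⟨rfl, h1, h2⟩

theorem has_dir (d : (grid r).Dart) : has d.fst (dir d) = true := by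
  have b1 := d.snd.1.isLt
  have b2 := d.snd.2.isLt
  rcases dir_spec d with ⟨h, h1, h2⟩ | ⟨h, h1, h2⟩ | ⟨h, h1, h2⟩ | ⟨h, h1, h2⟩
  · rw [h, has0, decide_eq_true_eq]; omega
  · rw [h, has1, decide_eq_true_eq]; omega
  · rw [h, has2, decide_eq_true_eq]; omega
  · rw [h, has3, decide_eq_true_eq]; omega

theorem dart_ext {d d' : (grid r).Dart} (h : d.fst = d'.fst) (hd : dir d = dir d') : d = d' := by
  apply SimpleGraph.Dart.ext
  apply Prod.ext h
  show d.snd = d'.snd
  have e1 : (d.fst.1 : ℕ) = d'.fst.1 := by rw [h]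
  have e2 : (d.fst.2 : ℕ) = d'.fst.2 := by rw [h]
  apply Prod.ext <;> apply Fin.ext
  all_goals
    rcases dir_spec d with ⟨g, h1, h2⟩ | ⟨g, h1, h2⟩ | ⟨g, h1, h2⟩ | ⟨g, h1, h2⟩ <;>
    rcases dir_spec d' with ⟨g', h1', h2'⟩ | ⟨g', h1', h2'⟩ | ⟨g', h1', h2'⟩ | ⟨g', h1', h2'⟩ <;>
    first
      | omega
      | (exfalso; rw [g, g'] at hd; revert hd; decide)

theorem exists_dart {v : Fin r × Fin r} {k : Fin 4} (h : has v k = true) :
    ∃ d : (grid r).Dart, d.fst = v ∧ dir d = k := by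
  have b1 := v.1.isLt
  have b2 := v.2.isLt
  have key : ∀ w : Fin r × Fin r, (grid r).Adj v w →
      ∃ d : (grid r).Dart, d.fst = v ∧ d.snd = w := fun w hw => ⟨⟨(v, w), hw⟩, rfl, rfl⟩
  fin_cases k
  · have h1 : (v.1 : ℕ) + 1 < r := by simpa [has0] using h
    obtain ⟨d, h2, h3⟩ := key (⟨v.1 + 1, h1⟩, v.2) ((adj_iff _ _).2 (by simp))
    refine ⟨d, h2, ?_⟩
    unfold dir
    rw [h2, h3]
    simp
  · have h1 : (v.2 : ℕ) + 1 < r := by simpa [has1] using h
    obtain ⟨d, h2, h3⟩ := key (v.1, ⟨v.2 + 1, h1⟩) ((adj_iff _ _).2 (by simp))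
    refine ⟨d, h2, ?_⟩
    unfold dir
    rw [h2, h3]
    simp
  · have h1 : 0 < (v.1 : ℕ) := by simpa [has2] using h
    obtain ⟨d, h2, h3⟩ := key (⟨v.1 - 1, by omega⟩, v.2) ((adj_iff _ _).2 (by simp; omega))
    refine ⟨d, h2, ?_⟩
    unfold dir
    rw [h2, h3, if_neg (by simp; omega), if_neg (by simp), if_pos (by simp; omega)]
    rfl
  · have h1 : 0 < (v.2 : ℕ) := by simpa [has3] using h
    obtain ⟨d, h2, h3⟩ := key (v.1, ⟨v.2 - 1, by omega⟩) ((adj_iff _ _).2 (by simp; omega))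
    refine ⟨d, h2, ?_⟩
    unfold dir
    rw [h2, h3, if_neg (by simp), if_neg (by simp; omega), if_neg (by simp)]
    rfl

/-- the rotation -/
noncomputable def rotF (d : (grid r).Dart) : (grid r).Dart :=
  (exists_dart (suc_mem (has d.fst) (dir d) (has_dir d))).choose

theorem rotF_fst (d : (grid r).Dart) : (rotF d).fst = d.fst :=
  (exists_dart (suc_mem (has d.fst) (dir d) (has_dir d))).choose_spec.1

theorem rotF_dir (d : (grid r).Dart) : dir (rotF d) = suc (has d.fst) (dir d) :=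
  (exists_dart (suc_mem (has d.fst) (dir d) (has_dir d))).choose_spec.2

theorem rotF_inj : Function.Injective (rotF : (grid r).Dart → (grid r).Dart) := by
  intro d d' h
  have h1 : d.fst = d'.fst := by rw [← rotF_fst d, h, rotF_fst]
  refine dart_ext h1 (suc_inj (has d.fst) _ _ (has_dir d) (by rw [h1]; exact has_dir d') ?_)
  rw [← rotF_dir, h, rotF_dir, h1]

theorem finite_darts (r : ℕ) : Finite (grid r).Dart :=
  Finite.of_injective (fun d : (grid r).Dart => (d.fst, d.snd)) fun d d' h => by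
    apply SimpleGraph.Dart.ext
    exact h

/-- the rotation system -/
noncomputable def rot (r : ℕ) : Equiv.Perm (grid r).Dart :=
  Equiv.ofBijective rotF ((@Finite.injective_iff_bijective _ (finite_darts r) _).1 rotF_inj)

theorem rot_apply (d : (grid r).Dart) : rot r d = rotF d := rfl

theorem rot_cyc (d d' : (grid r).Dart) (h : d.fst = d'.fst) : (rot r).SameCycle d d' := by
  obtain ⟨n, hn⟩ := suc_cyc (has d.fst) (dir d) (dir d') (has_dir d)
    (by rw [h]; exact has_dir d')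
  refine ⟨((n : ℕ) : ℤ), ?_⟩
  rw [zpow_natCast]
  have key : ∀ m : ℕ, ((rot r ^ m) d).fst = d.fst ∧
      dir ((rot r ^ m) d) = (suc (has d.fst))^[m] (dir d) := by
    intro m
    induction m with
    | zero => exact ⟨rfl, rfl⟩
    | succ m ih =>
      rw [pow_succ', Equiv.Perm.mul_apply, rot_apply, rotF_fst, rotF_dir, ih.1, ih.2,
        Function.iterate_succ_apply']
      exact ⟨rfl, rfl⟩
  obtain ⟨h1, h2⟩ := key n
  exact dart_ext (h1.trans h) (h2.trans hn)

/-- the cell on the right of a dart -/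
def cx (d : (grid r).Dart) : ℤ := if dir d = 0 ∨ dir d = 1 then (d.fst.1 : ℤ) else d.fst.1 - 1

/-- the cell on the right of a dart -/
def cy (d : (grid r).Dart) : ℤ := if dir d = 1 ∨ dir d = 2 then (d.fst.2 : ℤ) else d.fst.2 - 1

/-- the label: the cell on the right, or the outer face -/
def lab (d : (grid r).Dart) : ℤ × ℤ :=
  if 0 ≤ cx d ∧ cx d < r - 1 ∧ 0 ≤ cy d ∧ cy d < r - 1 then (cx d, cy d) else (-1, -1)

theorem lab_eq {d e : (grid r).Dart}
    (h : (cx d = cx e ∧ cy d = cy e) ∨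
      (¬ (0 ≤ cx d ∧ cx d < r - 1 ∧ 0 ≤ cy d ∧ cy d < r - 1) ∧
        ¬ (0 ≤ cx e ∧ cx e < r - 1 ∧ 0 ≤ cy e ∧ cy e < r - 1))) : lab d = lab e := by
  unfold lab
  rcases h with ⟨h1, h2⟩ | ⟨h1, h2⟩
  · rw [h1, h2]
  · rw [if_neg h1, if_neg h2]

theorem dir_symm (d : (grid r).Dart) : dir d.symm = dir d + 2 := by
  have hf : d.symm.fst = d.snd := rfl
  have hs : d.symm.snd = d.fst := rfl
  rcases dir_spec d with ⟨h, h1, h2⟩ | ⟨h, h1, h2⟩ | ⟨h, h1, h2⟩ | ⟨h, h1, h2⟩ <;>
  rcases dir_spec d.symm with ⟨g, g1, g2⟩ | ⟨g, g1, g2⟩ | ⟨g, g1, g2⟩ | ⟨g, g1, g2⟩ <;>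
  rw [hf, hs] at g1 g2 <;>
  first
    | (exfalso; omega)
    | (rw [h, g]; decide)

theorem c_spec (d : (grid r).Dart) :
    (dir d = 0 ∧ cx d = d.fst.1 ∧ cy d = d.fst.2 - 1) ∨
    (dir d = 1 ∧ cx d = d.fst.1 ∧ cy d = d.fst.2) ∨
    (dir d = 2 ∧ cx d = d.fst.1 - 1 ∧ cy d = d.fst.2) ∨
    (dir d = 3 ∧ cx d = d.fst.1 - 1 ∧ cy d = d.fst.2 - 1) := by
  unfold cx cy
  rcases dir_spec d with ⟨h, -⟩ | ⟨h, -⟩ | ⟨h, -⟩ | ⟨h, -⟩ <;> rw [h] <;> simp

theorem lab_next (hr : 2 ≤ r) (d : (grid r).Dart) : lab (faceNext (rot r) d) = lab d := by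
  obtain ⟨e, he⟩ : ∃ e, e = faceNext (rot r) d := ⟨_, rfl⟩
  have he1 : e = rotF d.symm := he
  have h1 : e.fst = d.snd := by rw [he1, rotF_fst]; rfl
  have h2 : dir e = suc (has d.snd) (dir d + 2) := by
    rw [he1, rotF_dir, dir_symm]; rfl
  rw [← he]
  have e1 : (e.fst.1 : ℕ) = d.snd.1 := by rw [h1]
  have e2 : (e.fst.2 : ℕ) = d.snd.2 := by rw [h1]
  have b1 := d.fst.1.isLt
  have b2 := d.fst.2.isLt
  have b3 := d.snd.1.isLt
  have b4 := d.snd.2.isLt
  apply lab_eq
  have hd := c_spec d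
  rcases dir_spec d with ⟨h, h3, h4⟩ | ⟨h, h3, h4⟩ | ⟨h, h3, h4⟩ | ⟨h, h3, h4⟩
  · have s : dir e = if 0 < (d.snd.2 : ℕ) then 3 else if (d.snd.1 : ℕ) + 1 < r then 0 else
        if (d.snd.2 : ℕ) + 1 < r then 1 else 2 := by
      rw [h2, h]
      show (if has d.snd 3 then (3 : Fin 4) else if has d.snd 0 then 0 else
        if has d.snd 1 then 1 else 2) = _
      simp only [has0, has1, has3, decide_eq_true_eq]
    rw [h] at hd
    have hd' : cx d = d.fst.1 ∧ cy d = d.fst.2 - 1 := by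
      rcases hd with ⟨g, g'⟩ | ⟨g, g'⟩ | ⟨g, g'⟩ | ⟨g, g'⟩
      · exact g'
      all_goals (exfalso; revert g; decide)
    clear hd h h2 he he1 h1
    rcases c_spec e with ⟨g, g1, g2⟩ | ⟨g, g1, g2⟩ | ⟨g, g1, g2⟩ | ⟨g, g1, g2⟩ <;> rw [g] at s <;>
    clear g <;> split_ifs at s with t1 t2 t3 <;>
    first
      | (exfalso; revert s; decide)
      | (clear s; omega)
  · have s : dir e = if (d.snd.1 : ℕ) + 1 < r then 0 else if (d.snd.2 : ℕ) + 1 < r then 1 else
        if 0 < (d.snd.1 : ℕ) then 2 else 3 := by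
      rw [h2, h]
      show (if has d.snd 0 then (0 : Fin 4) else if has d.snd 1 then 1 else
        if has d.snd 2 then 2 else 3) = _
      simp only [has0, has1, has2, decide_eq_true_eq]
    rw [h] at hd
    have hd' : cx d = d.fst.1 ∧ cy d = d.fst.2 := by
      rcases hd with ⟨g, g'⟩ | ⟨g, g'⟩ | ⟨g, g'⟩ | ⟨g, g'⟩
      · exfalso; revert g; decide
      · exact g'
      all_goals (exfalso; revert g; decide)
    clear hd h h2 he he1 h1
    rcases c_spec e with ⟨g, g1, g2⟩ | ⟨g, g1, g2⟩ | ⟨g, g1, g2⟩ | ⟨g, g1, g2⟩ <;> rw [g] at s <;>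
    clear g <;> split_ifs at s with t1 t2 t3 <;>
    first
      | (exfalso; revert s; decide)
      | (clear s; omega)
  · have s : dir e = if (d.snd.2 : ℕ) + 1 < r then 1 else if 0 < (d.snd.1 : ℕ) then 2 else
        if 0 < (d.snd.2 : ℕ) then 3 else 0 := by
      rw [h2, h]
      show (if has d.snd 1 then (1 : Fin 4) else if has d.snd 2 then 2 else
        if has d.snd 3 then 3 else 0) = _
      simp only [has2, has1, has3, decide_eq_true_eq]
    rw [h] at hd
    have hd' : cx d = d.fst.1 - 1 ∧ cy d = d.fst.2 := by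
      rcases hd with ⟨g, g'⟩ | ⟨g, g'⟩ | ⟨g, g'⟩ | ⟨g, g'⟩
      · exfalso; revert g; decide
      · exfalso; revert g; decide
      · exact g'
      · exfalso; revert g; decide
    clear hd h h2 he he1 h1
    rcases c_spec e with ⟨g, g1, g2⟩ | ⟨g, g1, g2⟩ | ⟨g, g1, g2⟩ | ⟨g, g1, g2⟩ <;> rw [g] at s <;>
    clear g <;> split_ifs at s with t1 t2 t3 <;>
    first
      | (exfalso; revert s; decide)
      | (clear s; omega)
  · have s : dir e = if 0 < (d.snd.1 : ℕ) then 2 else if 0 < (d.snd.2 : ℕ) then 3 else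
        if (d.snd.1 : ℕ) + 1 < r then 0 else 1 := by
      rw [h2, h]
      show (if has d.snd 2 then (2 : Fin 4) else if has d.snd 3 then 3 else
        if has d.snd 0 then 0 else 1) = _
      simp only [has0, has2, has3, decide_eq_true_eq]
    rw [h] at hd
    have hd' : cx d = d.fst.1 - 1 ∧ cy d = d.fst.2 - 1 := by
      rcases hd with ⟨g, g'⟩ | ⟨g, g'⟩ | ⟨g, g'⟩ | ⟨g, g'⟩
      · exfalso; revert g; decide
      · exfalso; revert g; decide
      · exfalso; revert g; decide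
      · exact g'
    clear hd h h2 he he1 h1
    rcases c_spec e with ⟨g, g1, g2⟩ | ⟨g, g1, g2⟩ | ⟨g, g1, g2⟩ | ⟨g, g1, g2⟩ <;> rw [g] at s <;>
    clear g <;> split_ifs at s with t1 t2 t3 <;>
    first
      | (exfalso; revert s; decide)
      | (clear s; omega)

theorem lab_cycle (hr : 2 ≤ r) {d d' : (grid r).Dart}
    (h : (faceNext (rot r)).SameCycle d d') : lab d = lab d' := by
  have key : ∀ (n : ℕ) (d : (grid r).Dart), lab (((faceNext (rot r)) ^ n) d) = lab d := by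
    intro n
    induction n with
    | zero => intro d; rfl
    | succ n ih =>
      intro d
      rw [pow_succ', Equiv.Perm.mul_apply, lab_next hr, ih]
  obtain ⟨k, rfl⟩ := h
  rcases k with n | n
  · exact (key n d).symm
  · rw [zpow_negSucc]
    have h1 := key (n + 1) ((((faceNext (rot r)) ^ (n + 1))⁻¹) d)
    rw [← Equiv.Perm.mul_apply, mul_inv_cancel, Equiv.Perm.one_apply] at h1
    exact h1

theorem card_edge (n : ℕ) : Nat.card (grid (n + 1)).edgeSet ≤ 2 * (n * (n + 1)) := by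
  classical
  let F : (Fin n × Fin (n + 1)) ⊕ (Fin (n + 1) × Fin n) → (grid (n + 1)).edgeSet := fun x =>
    match x with
    | Sum.inl a => ⟨s((a.1.castSucc, a.2), (a.1.succ, a.2)), by
        rw [SimpleGraph.mem_edgeSet, adj_iff]; left; simp⟩
    | Sum.inr a => ⟨s((a.1, a.2.castSucc), (a.1, a.2.succ)), by
        rw [SimpleGraph.mem_edgeSet, adj_iff]; right; left; simp⟩
  have hF : Function.Surjective F := by
    have key1 : ∀ u v : Fin (n + 1) × Fin (n + 1), (u.1 : ℕ) + 1 = v.1 → (u.2 : ℕ) = v.2 →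
        ∃ x, (F x).1 = s(u, v) := by
      intro u v h1 h2
      have b := v.1.isLt
      refine ⟨Sum.inl (⟨u.1, by omega⟩, u.2), ?_⟩
      have ea : ((⟨u.1, by omega⟩ : Fin n).castSucc, u.2) = u := Prod.ext (Fin.ext rfl) rfl
      have eb : ((⟨u.1, by omega⟩ : Fin n).succ, u.2) = v := Prod.ext (Fin.ext h1) (Fin.ext h2)
      show s(_, _) = _
      rw [ea, eb]
    have key2 : ∀ u v : Fin (n + 1) × Fin (n + 1), (u.1 : ℕ) = v.1 → (u.2 : ℕ) + 1 = v.2 →
        ∃ x, (F x).1 = s(u, v) := by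
      intro u v h1 h2
      have b := v.2.isLt
      refine ⟨Sum.inr (u.1, ⟨u.2, by omega⟩), ?_⟩
      have ea : (u.1, (⟨u.2, by omega⟩ : Fin n).castSucc) = u := Prod.ext rfl (Fin.ext rfl)
      have eb : (u.1, (⟨u.2, by omega⟩ : Fin n).succ) = v := Prod.ext (Fin.ext h1) (Fin.ext h2)
      show s(_, _) = _
      rw [ea, eb]
    have key : ∀ e ∈ (grid (n + 1)).edgeSet, ∃ x, (F x).1 = e := by
      intro e
      induction e using Sym2.ind with
      | _ u v =>
        intro he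
        rw [SimpleGraph.mem_edgeSet, adj_iff] at he
        rcases he with ⟨h1, h2⟩ | ⟨h1, h2⟩ | ⟨h1, h2⟩ | ⟨h1, h2⟩
        · exact key1 u v h1 h2
        · exact key2 u v h1 h2
        · rw [Sym2.eq_swap]
          exact key1 v u h1 h2.symm
        · rw [Sym2.eq_swap]
          exact key2 v u h1.symm h2
    rintro ⟨e, he⟩
    obtain ⟨x, hx⟩ := key e he
    exact ⟨x, Subtype.ext hx⟩
  have h1 := Nat.card_le_card_of_surjective F hF
  rw [Nat.card_sum, Nat.card_prod, Nat.card_prod, Nat.card_fin, Nat.card_fin] at h1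
  nlinarith

theorem card_face (n : ℕ) (hn : 1 ≤ n) : n * n + 1 ≤
    Nat.card (Quotient (Equiv.Perm.SameCycle.setoid (faceNext (rot (n + 1))))) := by
  classical
  have := finite_darts (n + 1)
  have key : ∀ x : Option (Fin n × Fin n), ∃ d : (grid (n + 1)).Dart,
      lab d = x.elim (-1, -1) (fun a => (((a.1 : ℕ) : ℤ), ((a.2 : ℕ) : ℤ))) := by
    intro x
    rcases x with _ | ⟨a, b⟩
    · obtain ⟨d, h1, h2⟩ := exists_dart (r := n + 1) (v := (0, 0)) (k := 0) (by
        rw [has0, decide_eq_true_eq]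
        simp
        omega)
      refine ⟨d, ?_⟩
      unfold lab
      rw [if_neg]
      · rfl
      · have e1 : (d.fst.2 : ℕ) = 0 := by rw [h1]; rfl
        rcases c_spec d with ⟨g, g1, g2⟩ | ⟨g, g1, g2⟩ | ⟨g, g1, g2⟩ | ⟨g, g1, g2⟩
        · omega
        all_goals (exfalso; rw [h2] at g; revert g; decide)
    · have ha := a.isLt
      have hb := b.isLt
      obtain ⟨d, h1, h2⟩ := exists_dart (r := n + 1) (v := (a.castSucc, b.castSucc)) (k := 1) (by
        rw [has1, decide_eq_true_eq]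
        simp)
      refine ⟨d, ?_⟩
      have e1 : (d.fst.1 : ℕ) = a := by rw [h1]; rfl
      have e2 : (d.fst.2 : ℕ) = b := by rw [h1]; rfl
      have hc : cx d = (a : ℕ) ∧ cy d = (b : ℕ) := by
        rcases c_spec d with ⟨g, g1, g2⟩ | ⟨g, g1, g2⟩ | ⟨g, g1, g2⟩ | ⟨g, g1, g2⟩
        · exfalso; rw [h2] at g; revert g; decide
        · rw [e1] at g1
          rw [e2] at g2
          exact ⟨g1, g2⟩
        all_goals (exfalso; rw [h2] at g; revert g; decide)
      unfold lab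
      rw [hc.1, hc.2, if_pos]
      · rfl
      · push_cast
        omega
  choose D hD using key
  have hinj : Function.Injective (fun x => (Quotient.mk (Equiv.Perm.SameCycle.setoid
      (faceNext (rot (n + 1)))) (D x))) := by
    intro x y h
    have h1 : (faceNext (rot (n + 1))).SameCycle (D x) (D y) := Quotient.exact h
    have h2 := lab_cycle (by omega) h1
    rw [hD, hD] at h2
    rcases x with _ | ⟨a, b⟩ <;> rcases y with _ | ⟨a', b'⟩
    · rfl
    · exfalso
      have := congrArg Prod.fst h2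
      simp only [Option.elim] at this
      omega
    · exfalso
      have := congrArg Prod.fst h2
      simp only [Option.elim] at this
      omega
    · have g1 := congrArg Prod.fst h2
      have g2 := congrArg Prod.snd h2
      simp only [Option.elim] at g1 g2
      have g3 : a = a' := Fin.ext (by omega)
      have g4 : b = b' := Fin.ext (by omega)
      rw [g3, g4]
  have h1 := Nat.card_le_card_of_injective _ hinj
  rw [Finite.card_option, Nat.card_prod, Nat.card_fin] at h1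
  exact h1

/-- The grid is plane, inequality form. -/
theorem surf_grid (hr : 2 ≤ r) : SurfMap 0 (grid r) (rot r) := by
  obtain ⟨n, rfl⟩ : ∃ n, r = n + 1 := ⟨r - 1, by omega⟩
  refine ⟨fun d => rotF_fst d, rot_cyc, ?_⟩
  have h1 := card_edge n
  have h2 := card_face n (by omega)
  rw [Nat.card_prod, Nat.card_fin]
  nlinarith

/-- **The grid is plane.** -/
theorem plane_grid (hr : 2 ≤ r) : PlaneMap (grid r) (rot r) := by
  obtain ⟨n, rfl⟩ : ∃ n, r = n + 1 := ⟨r - 1, by omega⟩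
  exact SurfMap.plane ((pathGraph_connected n).boxProd (pathGraph_connected n)) (surf_grid hr)

end Vale.Agent.P235.ST.H6
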